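import Vale.Agent.P112.H371.Win

/-!
# P112, chapter (G), `[GAIN]`: the exceptional part of the plane of the windows (helper586)

`act z` = the trees which are used in the window above `z`, `G i` = the size of the tree function
of `i`. On a set `X` of windows the energy is estimated by Hölder only:

`∫_X Wa H (f * ∑_{i ∈ act z} G i) z ≤ (∫_X ∑_{i ∈ act z} Wa H 1[f ≠ 0, G i ≠ 0])^(3/4) *
  (∑ i, ∫ (G i)^4)^(1/4)`.

Corollaries: occupancy `a`, `{K < #act}`, sets of small measure, `{#act ≤ M0}`.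
-/

open MeasureTheory Set
open scoped ENNReal Real

noncomputable section

namespace Vale.Agent.P112.H586.Exc

open Vale.Agent.P112.H371

/-! ### Hölder's inequality with the exponents `4 / 3` and `4` -/

theorem hold34 {α : Type*} [MeasurableSpace α] (μ : Measure α) {A B : α → ℝ≥0∞}
    (hA : AEMeasurable A μ) (hB : AEMeasurable B μ) :
    ∫⁻ z, A z ^ (3 / 4 : ℝ) * B z ^ (1 / 4 : ℝ) ∂μ ≤
      (∫⁻ z, A z ∂μ) ^ (3 / 4 : ℝ) * (∫⁻ z, B z ∂μ) ^ (1 / 4 : ℝ) := by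
  have hc : Real.HolderConjugate (4 / 3) 4 := by
    rw [Real.holderConjugate_iff]; norm_num
  have h := ENNReal.lintegral_mul_le_Lp_mul_Lq μ hc
    (f := fun z => A z ^ (3 / 4 : ℝ)) (g := fun z => B z ^ (1 / 4 : ℝ))
    (hA.pow_const _) (hB.pow_const _)
  simp only [Pi.mul_apply] at h
  refine h.trans (le_of_eq ?_)
  congr 2
  · refine lintegral_congr fun z => ?_
    rw [← ENNReal.rpow_mul]; norm_num
  · norm_num
  · refine lintegral_congr fun z => ?_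
    rw [← ENNReal.rpow_mul]; norm_num

theorem hold34_sum {ι : Type*} (S : Finset ι) (A G : ι → ℝ≥0∞) :
    ∑ i ∈ S, A i ^ (3 / 4 : ℝ) * G i ≤
      (∑ i ∈ S, A i) ^ (3 / 4 : ℝ) * (∑ i ∈ S, G i ^ 4) ^ (1 / 4 : ℝ) := by
  have hc : Real.HolderConjugate (4 / 3) 4 := by
    rw [Real.holderConjugate_iff]; norm_num
  have h := ENNReal.inner_le_Lp_mul_Lq S (fun i => A i ^ (3 / 4 : ℝ)) G hc
  refine h.trans (le_of_eq ?_)
  congr 2
  · refine Finset.sum_congr rfl fun i _ => ?_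
    rw [← ENNReal.rpow_mul]; norm_num
  · norm_num
  · refine Finset.sum_congr rfl fun i _ => ?_
    exact_mod_cast ENNReal.rpow_natCast (G i) 4

/-! ### the window average -/

theorem Wa_hold {H : ℝ} {A B : ℝ × ℝ → ℝ≥0∞} (hA : Measurable A) (hB : Measurable B) (z : ℝ × ℝ) :
    Wa H (fun w => A w ^ (3 / 4 : ℝ) * B w ^ (1 / 4 : ℝ)) z ≤
      Wa H A z ^ (3 / 4 : ℝ) * Wa H B z ^ (1 / 4 : ℝ) := by
  unfold Wa
  have h := hold34 (volume.restrict (Ioc z.2 (z.2 + H))) (A := fun t => A (z.1, t))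
    (B := fun t => B (z.1, t)) (by fun_prop) (by fun_prop)
  refine (mul_le_mul_right h _).trans (le_of_eq ?_)
  rw [ENNReal.mul_rpow_of_nonneg _ _ (by norm_num), ENNReal.mul_rpow_of_nonneg _ _ (by norm_num)]
  rw [mul_mul_mul_comm, ← ENNReal.rpow_add_of_nonneg _ _ (by norm_num) (by norm_num)]
  norm_num

theorem Wa_sum {ι : Type*} {H : ℝ} (S : Finset ι) {A : ι → ℝ × ℝ → ℝ≥0∞}
    (hA : ∀ i, Measurable (A i)) (z : ℝ × ℝ) :
    Wa H (fun w => ∑ i ∈ S, A i w) z = ∑ i ∈ S, Wa H (A i) z := by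
  unfold Wa
  have h : ∫⁻ t in Ioc z.2 (z.2 + H), ∑ i ∈ S, A i (z.1, t) =
      ∑ i ∈ S, ∫⁻ t in Ioc z.2 (z.2 + H), A i (z.1, t) :=
    lintegral_finsetSum S (f := fun i t => A i (z.1, t)) fun i _ => (hA i).comp (by fun_prop)
  rw [h, Finset.mul_sum]

variable {ι : Type*} [Fintype ι]

/-- the window average of a function with a `z`-dependent set of trees -/
theorem meas_sum_act {act : ℝ × ℝ → Finset ι} (hact : ∀ i, MeasurableSet {z | i ∈ act z})
    {A : ι → ℝ × ℝ → ℝ≥0∞} (hA : ∀ i, Measurable (A i)) :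
    Measurable fun z => ∑ i ∈ act z, A i z := by
  have h : (fun z => ∑ i ∈ act z, A i z) = fun z => ∑ i, {z | i ∈ act z}.indicator (A i) z := by
    funext z
    classical
    simp only [indicator_apply, mem_ofPred_eq]
    rw [Finset.sum_ite_mem, Finset.univ_inter]
  rw [h]
  exact Finset.measurable_sum _ fun i _ => (hA i).indicator (hact i)

/-- the indicator of `{f ≠ 0, G ≠ 0}` -/
def ne2 (f G : ℝ × ℝ → ℝ≥0∞) (w : ℝ × ℝ) : ℝ≥0∞ := {w | f w ≠ 0 ∧ G w ≠ 0}.indicator 1 w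

theorem ne2_meas {f G : ℝ × ℝ → ℝ≥0∞} (hf : Measurable f) (hG : Measurable G) :
    Measurable (ne2 f G) := by
  refine measurable_one.indicator ?_
  exact (hf (measurableSet_singleton 0)).compl.inter (hG (measurableSet_singleton 0)).compl

/-- **the exceptional part, general form** -/
theorem exc_gen {H : ℝ} (hH : 0 < H) {act : ℝ × ℝ → Finset ι}
    (hact : ∀ i, MeasurableSet {z | i ∈ act z}) {G : ι → ℝ × ℝ → ℝ≥0∞}
    (hG : ∀ i, Measurable (G i)) {f : ℝ × ℝ → ℝ≥0∞} (hf : Measurable f) (hf1 : ∀ w, f w ≤ 1)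
    (X : Set (ℝ × ℝ)) :
    ∫⁻ z in X, Wa H (fun w => f w * ∑ i ∈ act z, G i w) z ≤
      (∫⁻ z in X, ∑ i ∈ act z, Wa H (ne2 f (G i)) z) ^ (3 / 4 : ℝ) *
        (∑ i, ∫⁻ w, G i w ^ 4) ^ (1 / 4 : ℝ) := by
  have hne : ∀ i, Measurable (ne2 f (G i)) := fun i => ne2_meas hf (hG i)
  have hp : ∀ z w, f w * ∑ i ∈ act z, G i w ≤ (∑ i ∈ act z, ne2 f (G i) w) ^ (3 / 4 : ℝ) *
      (∑ i ∈ act z, G i w ^ 4) ^ (1 / 4 : ℝ) := by
    intro z w
    refine le_trans ?_ (hold34_sum (act z) (fun i => ne2 f (G i) w) fun i => G i w)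
    rw [Finset.mul_sum]
    refine Finset.sum_le_sum fun i _ => ?_
    by_cases h1 : f w = 0
    · simp [h1]
    by_cases h2 : G i w = 0
    · simp [h2]
    have h3 : ne2 f (G i) w = 1 := by
      unfold ne2
      rw [indicator_of_mem (show w ∈ {w | f w ≠ 0 ∧ G i w ≠ 0} from ⟨h1, h2⟩)]
      rfl
    rw [h3, ENNReal.one_rpow]
    exact mul_le_mul_left (hf1 w) _
  have h1 : ∀ z, Wa H (fun w => f w * ∑ i ∈ act z, G i w) z ≤
      (∑ i ∈ act z, Wa H (ne2 f (G i)) z) ^ (3 / 4 : ℝ) *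
        (∑ i ∈ act z, Wa H (fun w => G i w ^ 4) z) ^ (1 / 4 : ℝ) := by
    intro z
    refine (Wa_mono (H := H) (fun w => hp z w) z).trans ?_
    refine (Wa_hold (Finset.measurable_sum _ fun i _ => hne i)
      (Finset.measurable_sum _ fun i _ => (hG i).pow_const 4) z).trans (le_of_eq ?_)
    rw [Wa_sum _ hne, Wa_sum _ fun i => (hG i).pow_const 4]
  refine (lintegral_mono h1).trans ?_
  refine (hold34 _ (meas_sum_act hact fun i => Wa_meas (hne i)).aemeasurable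
    (meas_sum_act hact fun i => Wa_meas ((hG i).pow_const 4)).aemeasurable).trans ?_
  refine mul_le_mul_right (ENNReal.rpow_le_rpow ?_ (by norm_num)) _
  refine (setLIntegral_le_lintegral _ _).trans ?_
  refine (lintegral_mono fun z => Finset.sum_le_sum_of_subset (Finset.subset_univ (act z))).trans ?_
  rw [lintegral_finsetSum _ fun i _ => Wa_meas ((hG i).pow_const 4)]
  refine Finset.sum_le_sum fun i _ => ?_
  rw [lint_Wa_all hH ((hG i).pow_const 4)]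

/-- occupancy: the trees of `act z` are nonzero on a part `≤ a H` of the window above `z` -/
def Occ (H : ℝ) (a : ℝ≥0∞) (act : ℝ × ℝ → Finset ι) (G : ι → ℝ × ℝ → ℝ≥0∞) (X : Set (ℝ × ℝ)) :
    Prop :=
  ∀ z ∈ X, ∀ i ∈ act z, volume {t | t ∈ Ioc z.2 (z.2 + H) ∧ G i (z.1, t) ≠ 0} ≤ a * ENNReal.ofReal H

theorem Wa_ne2_le {H : ℝ} (hH : 0 < H) {f G : ℝ × ℝ → ℝ≥0∞} (hf : Measurable f) (hG : Measurable G)
    {a : ℝ≥0∞} {z : ℝ × ℝ}
    (h : volume {t | t ∈ Ioc z.2 (z.2 + H) ∧ G (z.1, t) ≠ 0} ≤ a * ENNReal.ofReal H) :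
    Wa H (ne2 f G) z ≤ a := by
  have h1 : Wa H (ne2 f G) z ≤ ENNReal.ofReal (1 / H) * (a * ENNReal.ofReal H) := by
    unfold Wa
    gcongr
    have hm : MeasurableSet {t | f (z.1, t) ≠ 0 ∧ G (z.1, t) ≠ 0} := by
      have m1 : Measurable fun t => f (z.1, t) := hf.comp (by fun_prop)
      have m2 : Measurable fun t => G (z.1, t) := hG.comp (by fun_prop)
      exact (m1 (measurableSet_singleton 0)).compl.inter (m2 (measurableSet_singleton 0)).compl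
    have e1 : (fun t => ne2 f G (z.1, t)) =
        {t | f (z.1, t) ≠ 0 ∧ G (z.1, t) ≠ 0}.indicator 1 := by
      funext t
      rfl
    rw [e1, lintegral_indicator_one hm, Measure.restrict_apply hm]
    refine (measure_mono ?_).trans h
    exact fun t ht => ⟨ht.2, ht.1.2⟩
  refine h1.trans (le_of_eq ?_)
  rw [mul_comm a, ← mul_assoc, ← ENNReal.ofReal_mul (by positivity), one_div_mul_cancel hH.ne',
    ENNReal.ofReal_one, one_mul]

/-- **occupancy form** -/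
theorem exc_occ {H : ℝ} (hH : 0 < H) {act : ℝ × ℝ → Finset ι}
    (hact : ∀ i, MeasurableSet {z | i ∈ act z}) {G : ι → ℝ × ℝ → ℝ≥0∞}
    (hG : ∀ i, Measurable (G i)) {f : ℝ × ℝ → ℝ≥0∞} (hf : Measurable f) (hf1 : ∀ w, f w ≤ 1)
    {X : Set (ℝ × ℝ)} (hX : MeasurableSet X) {a : ℝ≥0∞} (ho : Occ H a act G X) :
    ∫⁻ z in X, Wa H (fun w => f w * ∑ i ∈ act z, G i w) z ≤
      (a * ∫⁻ z in X, ((act z).card : ℝ≥0∞)) ^ (3 / 4 : ℝ) *
        (∑ i, ∫⁻ w, G i w ^ 4) ^ (1 / 4 : ℝ) := by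
  refine (exc_gen hH hact hG hf hf1 X).trans ?_
  have mc : Measurable fun z => ((act z).card : ℝ≥0∞) := by
    have := meas_sum_act hact (A := fun _ _ => 1) fun _ => measurable_const
    simpa using this
  gcongr ?_ ^ (3 / 4 : ℝ) * _
  rw [← lintegral_const_mul _ mc]
  refine setLIntegral_mono' hX fun z hz => ?_
  refine (Finset.sum_le_card_nsmul _ _ a fun i hi => Wa_ne2_le hH hf (hG i) (ho z hz i hi)).trans ?_
  rw [nsmul_eq_mul, mul_comm]

theorem meas_card {act : ℝ × ℝ → Finset ι} (hact : ∀ i, MeasurableSet {z | i ∈ act z}) :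
    Measurable fun z => ((act z).card : ℝ≥0∞) := by
  have := meas_sum_act hact (A := fun _ _ => 1) fun _ => measurable_const
  simpa using this

/-- **many trees**: `X ⊆ {K < #act}` -/
theorem exc_big {H : ℝ} (hH : 0 < H) {act : ℝ × ℝ → Finset ι}
    (hact : ∀ i, MeasurableSet {z | i ∈ act z}) {G : ι → ℝ × ℝ → ℝ≥0∞}
    (hG : ∀ i, Measurable (G i)) {f : ℝ × ℝ → ℝ≥0∞} (hf : Measurable f) (hf1 : ∀ w, f w ≤ 1)
    {X : Set (ℝ × ℝ)} (hX : MeasurableSet X) {a K : ℝ≥0∞} (ho : Occ H a act G X) (hK : K ≠ 0)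
    (hK' : K ≠ ⊤) (hX2 : ∀ z ∈ X, K ≤ ((act z).card : ℝ≥0∞)) :
    ∫⁻ z in X, Wa H (fun w => f w * ∑ i ∈ act z, G i w) z ≤
      (a * (K⁻¹ * ∫⁻ z, ((act z).card : ℝ≥0∞) ^ 2)) ^ (3 / 4 : ℝ) *
        (∑ i, ∫⁻ w, G i w ^ 4) ^ (1 / 4 : ℝ) := by
  refine (exc_occ hH hact hG hf hf1 hX ho).trans ?_
  gcongr (a * ?_) ^ (3 / 4 : ℝ) * _
  rw [← lintegral_const_mul _ ((meas_card hact).pow_const 2)]
  refine (setLIntegral_mono' hX fun z hz => ?_).trans (setLIntegral_le_lintegral X _)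
  have h := hX2 z hz
  calc ((act z).card : ℝ≥0∞) = K⁻¹ * (K * (act z).card) := by
        rw [← mul_assoc, ENNReal.inv_mul_cancel hK hK', one_mul]
    _ ≤ K⁻¹ * (((act z).card : ℝ≥0∞) * (act z).card) := by gcongr
    _ = K⁻¹ * ((act z).card : ℝ≥0∞) ^ 2 := by rw [pow_two]

/-- **sets of small measure** -/
theorem exc_small {H : ℝ} (hH : 0 < H) {act : ℝ × ℝ → Finset ι}
    (hact : ∀ i, MeasurableSet {z | i ∈ act z}) {G : ι → ℝ × ℝ → ℝ≥0∞}
    (hG : ∀ i, Measurable (G i)) {f : ℝ × ℝ → ℝ≥0∞} (hf : Measurable f) (hf1 : ∀ w, f w ≤ 1)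
    {X : Set (ℝ × ℝ)} (hX : MeasurableSet X) {a : ℝ≥0∞} (ho : Occ H a act G X) :
    ∫⁻ z in X, Wa H (fun w => f w * ∑ i ∈ act z, G i w) z ≤
      (a * (volume X ^ (1 / 2 : ℝ) * (∫⁻ z in X, ((act z).card : ℝ≥0∞) ^ 2) ^ (1 / 2 : ℝ))) ^
        (3 / 4 : ℝ) * (∑ i, ∫⁻ w, G i w ^ 4) ^ (1 / 4 : ℝ) := by
  refine (exc_occ hH hact hG hf hf1 hX ho).trans ?_
  gcongr (a * ?_) ^ (3 / 4 : ℝ) * _
  have hc : Real.HolderConjugate 2 2 := Real.HolderConjugate.two_two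
  have h := ENNReal.lintegral_mul_le_Lp_mul_Lq (volume.restrict X) hc
    (f := fun _ => 1) (g := fun z => ((act z).card : ℝ≥0∞)) aemeasurable_const
    (meas_card hact).aemeasurable
  simp only [Pi.mul_apply, one_mul, ENNReal.one_rpow, lintegral_const, Measure.restrict_apply,
    MeasurableSet.univ, univ_inter] at h
  refine h.trans (le_of_eq ?_)
  congr 2
  refine lintegral_congr fun z => ?_
  exact_mod_cast ENNReal.rpow_natCast ((act z).card : ℝ≥0∞) 2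

/-- **few trees**: `#act ≤ M0` on `X`; the support of `f` enters -/
theorem exc_low {H : ℝ} (hH : 0 < H) {act : ℝ × ℝ → Finset ι}
    (hact : ∀ i, MeasurableSet {z | i ∈ act z}) {G : ι → ℝ × ℝ → ℝ≥0∞}
    (hG : ∀ i, Measurable (G i)) {f : ℝ × ℝ → ℝ≥0∞} (hf : Measurable f) (hf1 : ∀ w, f w ≤ 1)
    {X : Set (ℝ × ℝ)} (hX : MeasurableSet X) {M0 : ℝ≥0∞}
    (hX2 : ∀ z ∈ X, ((act z).card : ℝ≥0∞) ≤ M0) :
    ∫⁻ z in X, Wa H (fun w => f w * ∑ i ∈ act z, G i w) z ≤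
      (M0 * volume {w | f w ≠ 0}) ^ (3 / 4 : ℝ) *
        (∑ i, ∫⁻ w, G i w ^ 4) ^ (1 / 4 : ℝ) := by
  refine (exc_gen hH hact hG hf hf1 X).trans ?_
  have ms : MeasurableSet {w | f w ≠ 0} := (hf (measurableSet_singleton 0)).compl
  have mi : Measurable ({w | f w ≠ 0}.indicator (1 : ℝ × ℝ → ℝ≥0∞)) := measurable_one.indicator ms
  gcongr ?_ ^ (3 / 4 : ℝ) * _
  have h1 : ∀ z ∈ X, ∑ i ∈ act z, Wa H (ne2 f (G i)) z ≤
      M0 * Wa H ({w | f w ≠ 0}.indicator 1) z := by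
    intro z hz
    refine (Finset.sum_le_card_nsmul _ _ (Wa H ({w | f w ≠ 0}.indicator 1) z)
      fun i _ => Wa_mono (fun w => ?_) z).trans ?_
    · unfold ne2
      exact indicator_le_indicator_of_subset (fun w hw => hw.1) (fun _ => bot_le) w
    · rw [nsmul_eq_mul]
      exact mul_le_mul_left (hX2 z hz) _
  refine (setLIntegral_mono' hX h1).trans ?_
  rw [lintegral_const_mul _ (Wa_meas mi)]
  gcongr
  refine (setLIntegral_le_lintegral _ _).trans ?_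
  rw [lint_Wa_all hH mi, lintegral_indicator_one ms]

omit [Fintype ι] in
/-- the form with complex functions: `G i w = g i (tilt i w)` and an arbitrary bounded `f` -/
theorem Wa_enorm_le {H : ℝ} (act : ℝ × ℝ → Finset ι) (G : ι → ℝ × ℝ → ℂ) (f : ℝ × ℝ → ℝ)
    (z : ℝ × ℝ) :
    Wa H (fun w => ‖f w‖ₑ * ‖∑ i ∈ act z, G i w‖ₑ) z ≤
      Wa H (fun w => ‖f w‖ₑ * ∑ i ∈ act z, ‖G i w‖ₑ) z :=
  Wa_mono (fun w => mul_le_mul_right (enorm_sum_le _ _) _) z

theorem enorm_le_one {f : ℝ × ℝ → ℝ} (h : ∀ w, |f w| ≤ 1) (w : ℝ × ℝ) : ‖f w‖ₑ ≤ 1 := by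
  rw [Real.enorm_eq_ofReal_abs]
  exact ENNReal.ofReal_le_one.2 (h w)

theorem supp_enorm (f : ℝ × ℝ → ℝ) : {w | ‖f w‖ₑ ≠ 0} = {w | f w ≠ 0} := by
  ext w
  simp

/-- the fourth moments are shear invariant -/
theorem lint_tilt4 (s : ℝ) {g : ℝ × ℝ → ℝ≥0∞} (hg : Measurable g) :
    ∫⁻ w : ℝ × ℝ, g (w.1, w.2 - s * w.1) ^ 4 = ∫⁻ w, g w ^ 4 := by
  rw [Measure.volume_eq_prod, lintegral_prod _ (by fun_prop), lintegral_prod _ (by fun_prop)]
  refine lintegral_congr fun x => ?_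
  exact lintegral_sub_right_eq_self (fun t => g (x, t) ^ 4) (s * x)

end Vale.Agent.P112.H586.Exc
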