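import Vale.Agent.P112.H586.Glue2
import Vale.Agent.P112.H273.Arcs

/-!
# P112, chapter (G): the gauge

`HNode`: high nodes. `mh C`: the maximal number of high nodes in a chain below `C`.
`Mg β γ C k = (#C)^β (1+γ)^(2k)`.
-/

open MeasureTheory Finset
open scoped ENNReal

namespace Vale.Agent.P112.H586

open Vale.Agent.P112.H884 Vale.Agent.P112.H273

set_option linter.unusedSectionVars false

/-! ## 1. High nodes and chains -/

section Comb

variable {ι : Type*} [DecidableEq ι]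
variable {p : Sc} {s : ι → ℝ} {𝒢 : Finset ι → Prop}

/-- The class of an element at a later level is contained in its class at an earlier level. -/
lemma cls_anti (hg : Good p s 𝒢) {S0 : Finset ι} {n' : ℕ} {P' D : Finset ι} (hP' : 𝒢 P')
    (hc' : IsComp s (p.Δ n') S0 P') (hD : D ∈ cls p s n' P') {a : ι} (haD : a ∈ D) :
    ∀ (k : ℕ) (P C : Finset ι), 𝒢 P → IsComp s (p.Δ (n' + k)) S0 P → C ∈ cls p s (n' + k) P →
      a ∈ C → C ⊆ D := by
  intro k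
  induction k with
  | zero =>
    intro P C hP hc hC ha
    have h1 : P = P' := hc.eq hc' (cls_sub hC ha) (cls_sub hD haD)
    subst h1
    exact (hg.cls_inj hP hc.2.1 hC hD ha haD).le
  | succ k ih =>
    intro P C hP hc hC ha
    have haS : a ∈ S0 := hc.1 (cls_sub hC ha)
    obtain ⟨Q, hQ, haQ⟩ := exists_comp s (p.Δ (n' + k)) haS
    have hmono : ∀ j : ℕ, p.Δ (n' + j) ≤ p.Δ n' := by
      intro j
      induction j with
      | zero => exact le_rfl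
      | succ j ihj => exact (p.Δ_succ_le (n' + j)).trans ihj
    have hQP' : Q ⊆ P' := hc'.sub' (hmono k) hQ (cls_sub hD haD) haQ
    have hQg : 𝒢 Q := hg.her _ _ hP' hQP'
    have hCk : cl s (tau p s (n' + k) Q) Q a ∈ cls p s (n' + k) Q := mem_cls.2 ⟨a, haQ, rfl⟩
    have haCk : a ∈ cl s (tau p s (n' + k) Q) Q a :=
      self_mem_cl (hg.tau_spec hQg hQ.2.1).1.pos haQ
    have h3 := hg.nxt_spec hQg hQ.2.1 hCk
    have h4 : nxt p s (n' + k) Q (cl s (tau p s (n' + k) Q) Q a) = P := by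
      have h5 : IsComp s (p.Δ (n' + k + 1)) S0
          (nxt p s (n' + k) Q (cl s (tau p s (n' + k) Q) Q a)) :=
        hQ.trans (p.Δ_succ_le _) h3.1
      exact h5.eq hc (h3.2 haCk) (cls_sub hC ha)
    have h6 := hg.cl_nxt hQg hQ.2.1 hCk haCk
    have h7 : C = cl s (tau p s (n' + k + 1) P) P a := hg.cls_eq_cl hP hc.2.1 hC ha
    have h8 : tauN p s (n' + k) Q (cl s (tau p s (n' + k) Q) Q a) = tau p s (n' + k + 1) P := by
      unfold tauN
      rw [h4]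
    rw [h4, h8] at h6
    have h9 : C ⊆ cl s (tau p s (n' + k) Q) Q a := by
      rw [h7, h6]
      exact filter_subset _ _
    exact h9.trans (ih Q _ hQg hQ hCk haCk)

/-- `D` is a high node of `S0`: a class of a good component, with at least two pieces, and with
the status `hn`. -/
def HNode (p : Sc) (s : ι → ℝ) (𝒢 : Finset ι → Prop) (S0 : Finset ι)
    (hn : ℕ → Finset ι → Finset ι → Prop) (D : Finset ι) : Prop :=
  ∃ n P, 𝒢 P ∧ IsComp s (p.Δ n) S0 P ∧ D ∈ cls p s n P ∧ 2 ≤ (pcs p s n P D).card ∧ hn n P D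

/-- A chain of high nodes below `C`. -/
def HChain (p : Sc) (s : ι → ℝ) (𝒢 : Finset ι → Prop) (S0 : Finset ι)
    (hn : ℕ → Finset ι → Finset ι → Prop) (C : Finset ι) (𝒟 : Finset (Finset ι)) : Prop :=
  (∀ D ∈ 𝒟, ∀ D' ∈ 𝒟, D ⊆ D' ∨ D' ⊆ D) ∧ ∀ D ∈ 𝒟, D ⊆ C ∧ HNode p s 𝒢 S0 hn D

lemma ne_of_mem_pcs (hg : Good p s 𝒢) {n : ℕ} {P C e : Finset ι} (hP : 𝒢 P)
    (hc : Conn s (p.Δ n) P) (hC : C ∈ cls p s n P) (hq : 2 ≤ (pcs p s n P C).card)
    (he : e ∈ pcs p s n P C) : e ≠ C := by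
  rintro rfl
  obtain ⟨e', he', hne⟩ := Finset.exists_mem_ne (lt_of_lt_of_le one_lt_two hq) e
  obtain ⟨b, hb⟩ := pcs_nonempty hg hP hc hC he'
  exact Finset.disjoint_left.1 (pcs_disj hg hP hc hC he' he hne) hb
    (pcs_subset hg hP hc hC he' hb)

variable [Fintype ι]

open Classical in
/-- The maximal length of a chain of high nodes below `C`. -/
noncomputable def mh (p : Sc) (s : ι → ℝ) (𝒢 : Finset ι → Prop) (S0 : Finset ι)
    (hn : ℕ → Finset ι → Finset ι → Prop) (C : Finset ι) : ℕ :=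
  (univ : Finset (Finset (Finset ι))).sup
    fun 𝒟 => if HChain p s 𝒢 S0 hn C 𝒟 then 𝒟.card else 0

lemma card_le_mh {S0 : Finset ι} {hn : ℕ → Finset ι → Finset ι → Prop} {C : Finset ι}
    {𝒟 : Finset (Finset ι)} (h : HChain p s 𝒢 S0 hn C 𝒟) : 𝒟.card ≤ mh p s 𝒢 S0 hn C := by
  classical
  have := Finset.le_sup (f := fun 𝒟 => if HChain p s 𝒢 S0 hn C 𝒟 then 𝒟.card else 0)
    (Finset.mem_univ 𝒟)
  simpa [mh, h] using this

lemma mh_le {S0 : Finset ι} {hn : ℕ → Finset ι → Finset ι → Prop} {C : Finset ι} {k : ℕ}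
    (h : ∀ 𝒟, HChain p s 𝒢 S0 hn C 𝒟 → 𝒟.card ≤ k) : mh p s 𝒢 S0 hn C ≤ k := by
  classical
  refine Finset.sup_le fun 𝒟 _ => ?_
  split_ifs with h1
  · exact h 𝒟 h1
  · exact Nat.zero_le _

lemma exists_chain (S0 : Finset ι) (hn : ℕ → Finset ι → Finset ι → Prop) (C : Finset ι) :
    ∃ 𝒟, HChain p s 𝒢 S0 hn C 𝒟 ∧ 𝒟.card = mh p s 𝒢 S0 hn C := by
  classical
  obtain ⟨𝒟, _, h⟩ := Finset.exists_mem_eq_sup (univ : Finset (Finset (Finset ι)))
    ⟨∅, Finset.mem_univ _⟩ (fun 𝒟 => if HChain p s 𝒢 S0 hn C 𝒟 then 𝒟.card else 0)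
  by_cases h1 : HChain p s 𝒢 S0 hn C 𝒟
  · refine ⟨𝒟, h1, ?_⟩
    rw [mh, h, if_pos h1]
  · refine ⟨∅, ⟨by simp, by simp⟩, ?_⟩
    rw [mh, h, if_neg h1]
    rfl

/-- The gauge exponent grows by one at a high node. -/
lemma mh_add (hg : Good p s 𝒢) {S0 : Finset ι} {hn : ℕ → Finset ι → Finset ι → Prop} {n : ℕ}
    {P C e : Finset ι} (hP : 𝒢 P) (hc : IsComp s (p.Δ n) S0 P) (hC : C ∈ cls p s n P)
    (hq : 2 ≤ (pcs p s n P C).card) (he : e ∈ pcs p s n P C) :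
    mh p s 𝒢 S0 hn e + (open Classical in if hn n P C then 1 else 0) ≤ mh p s 𝒢 S0 hn C := by
  classical
  obtain ⟨𝒟, h1, h2⟩ := exists_chain (p := p) (s := s) (𝒢 := 𝒢) S0 hn e
  have heC := pcs_subset hg hP hc.2.1 hC he
  have hne := ne_of_mem_pcs hg hP hc.2.1 hC hq he
  rw [← h2]
  split_ifs with h3
  · have hCD : C ∉ 𝒟 := fun h4 => hne (Subset.antisymm heC (h1.2 C h4).1)
    have h5 : HChain p s 𝒢 S0 hn C (insert C 𝒟) := by
      constructor
      · intro D hD D' hD'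
        rw [mem_insert] at hD hD'
        rcases hD with rfl | hD
        · rcases hD' with rfl | hD'
          · exact Or.inl Subset.rfl
          · exact Or.inr ((h1.2 D' hD').1.trans heC)
        · rcases hD' with rfl | hD'
          · exact Or.inl ((h1.2 D hD).1.trans heC)
          · exact h1.1 D hD D' hD'
      · intro D hD
        rw [mem_insert] at hD
        rcases hD with rfl | hD
        · exact ⟨Subset.rfl, n, P, hP, hc, hC, hq, h3⟩
        · exact ⟨(h1.2 D hD).1.trans heC, (h1.2 D hD).2⟩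
    have h6 := card_le_mh h5
    rwa [card_insert_of_notMem hCD] at h6
  · refine card_le_mh (C := C) ⟨h1.1, fun D hD => ⟨(h1.2 D hD).1.trans heC, (h1.2 D hD).2⟩⟩

/-- The members of a chain have a common label. -/
lemma mh_le_of_path (hg : Good p s 𝒢) {S0 : Finset ι} {hn : ℕ → Finset ι → Finset ι → Prop}
    {C : Finset ι} {k : ℕ}
    (h : ∀ a ∈ C, ∀ 𝒟 : Finset (Finset ι), (∀ D ∈ 𝒟, a ∈ D ∧ D ⊆ C ∧ HNode p s 𝒢 S0 hn D) →
      (∀ D ∈ 𝒟, ∀ D' ∈ 𝒟, D ⊆ D' ∨ D' ⊆ D) → 𝒟.card ≤ k) :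
    mh p s 𝒢 S0 hn C ≤ k := by
  refine mh_le fun 𝒟 h1 => ?_
  rcases 𝒟.eq_empty_or_nonempty with rfl | hne
  · simp
  · obtain ⟨D, hD, hmin⟩ := exists_min_image 𝒟 Finset.card hne
    obtain ⟨hDC, n, P, hP, hc, hDcl, _⟩ := h1.2 D hD
    obtain ⟨a, ha⟩ := hg.cls_ne hP hc.2.1 hDcl
    refine h a (hDC ha) 𝒟 (fun D' hD' => ⟨?_, (h1.2 D' hD').1, (h1.2 D' hD').2⟩) h1.1
    rcases h1.1 D hD D' hD' with h2 | h2
    · exact h2 ha
    · rw [Finset.eq_of_subset_of_card_le h2 (hmin D' hD')]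
      exact ha

/-- The high nodes below a piece are determined by the component. -/
lemma HNode_imp (hg : Good p s 𝒢) {S0 S1 : Finset ι}
    {hn0 hn1 : ℕ → Finset ι → Finset ι → Prop} {n : ℕ} {P C e D : Finset ι} (hP : 𝒢 P)
    (hc0 : IsComp s (p.Δ n) S0 P) (hc1 : IsComp s (p.Δ n) S1 P) (hC : C ∈ cls p s n P)
    (hq : 2 ≤ (pcs p s n P C).card) (he : e ∈ pcs p s n P C) (hDe : D ⊆ e)
    (hst : ∀ n' P' D', n < n' → P' ⊆ P → IsComp s (p.Δ n') S0 P' → D' ∈ cls p s n' P' →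
      D' ⊆ e → 2 ≤ (pcs p s n' P' D').card → hn0 n' P' D' → hn1 n' P' D')
    (h : HNode p s 𝒢 S0 hn0 D) : HNode p s 𝒢 S1 hn1 D := by
  obtain ⟨n', P', hP', hc', hD, hq', hn'⟩ := h
  have heC := pcs_subset hg hP hc0.2.1 hC he
  have hne := ne_of_mem_pcs hg hP hc0.2.1 hC hq he
  obtain ⟨a, ha⟩ := hg.cls_ne hP' hc'.2.1 hD
  have haC : a ∈ C := heC (hDe ha)
  have hlt : n < n' := by
    by_contra hle
    push Not at hle
    obtain ⟨k, rfl⟩ := Nat.exists_eq_add_of_le hle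
    have h1 := cls_anti hg hP' hc' hD ha k P C hP hc0 hC haC
    exact hne (Subset.antisymm heC (h1.trans hDe))
  have hmono : ∀ j : ℕ, p.Δ (n + j) ≤ p.Δ n := by
    intro j
    induction j with
    | zero => exact le_rfl
    | succ j ihj => exact (p.Δ_succ_le (n + j)).trans ihj
  have hΔ : p.Δ n' ≤ p.Δ n := by
    obtain ⟨k, rfl⟩ := Nat.exists_eq_add_of_le hlt.le
    exact hmono k
  have hPP : P' ⊆ P := hc0.sub' hΔ hc' (cls_sub hC haC) (cls_sub hD ha)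
  have hc2 : IsComp s (p.Δ n') P P' :=
    ⟨hPP, hc'.2.1, fun x hx y hy hyP => hc'.2.2 x hx y (hc0.1 hy) hyP⟩
  exact ⟨n', P', hP', hc1.trans hΔ hc2, hD, hq', hst n' P' D hlt hPP hc' hD hDe hq' hn'⟩

/-- The gauge exponents of the pieces are determined by the component and the statuses inside. -/
theorem mh_congr (hg : Good p s 𝒢) {S0 S1 : Finset ι}
    {hn0 hn1 : ℕ → Finset ι → Finset ι → Prop} {n : ℕ} {P C e : Finset ι} (hP : 𝒢 P)
    (hc0 : IsComp s (p.Δ n) S0 P) (hc1 : IsComp s (p.Δ n) S1 P) (hC : C ∈ cls p s n P)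
    (hq : 2 ≤ (pcs p s n P C).card) (he : e ∈ pcs p s n P C)
    (hst : ∀ n' P' D', n < n' → P' ⊆ P → IsComp s (p.Δ n') S0 P' → D' ∈ cls p s n' P' →
      D' ⊆ e → 2 ≤ (pcs p s n' P' D').card → (hn0 n' P' D' ↔ hn1 n' P' D')) :
    mh p s 𝒢 S0 hn0 e = mh p s 𝒢 S1 hn1 e := by
  have hmono : ∀ j : ℕ, p.Δ (n + j) ≤ p.Δ n := by
    intro j
    induction j with
    | zero => exact le_rfl
    | succ j ihj => exact (p.Δ_succ_le (n + j)).trans ihj
  have hst' : ∀ n' P' D', n < n' → P' ⊆ P → IsComp s (p.Δ n') S1 P' → D' ∈ cls p s n' P' →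
      D' ⊆ e → 2 ≤ (pcs p s n' P' D').card → hn1 n' P' D' → hn0 n' P' D' := by
    intro n' P' D' h1 h2 h3 h4 h5 h6 h7
    have hΔ : p.Δ n' ≤ p.Δ n := by
      obtain ⟨k, rfl⟩ := Nat.exists_eq_add_of_le h1.le
      exact hmono k
    have hc2 : IsComp s (p.Δ n') P P' :=
      ⟨h2, h3.2.1, fun x hx y hy hyP => h3.2.2 x hx y (hc1.1 hy) hyP⟩
    exact (hst n' P' D' h1 h2 (hc0.trans hΔ hc2) h4 h5 h6).2 h7
  refine le_antisymm (mh_le fun 𝒟 h => card_le_mh ⟨h.1, fun D hD => ⟨(h.2 D hD).1, ?_⟩⟩)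
    (mh_le fun 𝒟 h => card_le_mh ⟨h.1, fun D hD => ⟨(h.2 D hD).1, ?_⟩⟩)
  · exact HNode_imp hg hP hc0 hc1 hC hq he (h.2 D hD).1
      (fun n' P' D' h1 h2 h3 h4 h5 h6 => (hst n' P' D' h1 h2 h3 h4 h5 h6).1) (h.2 D hD).2
  · exact HNode_imp hg hP hc1 hc0 hC hq he (h.2 D hD).1 hst' (h.2 D hD).2

end Comb

/-! ## 2. Measurability -/

section Meas

variable {ι : Type*} [DecidableEq ι] [Fintype ι]
variable {p : Sc} {s : ι → ℝ} {𝒢 : Finset ι → Prop} {S : ℝ × ℝ → Finset ι}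
  {hN : ℕ → Finset ι → Finset ι → ℝ × ℝ → Prop}

lemma meas_HNode (mS : ∀ T, MeasurableSet {z | S z = T})
    (mN : ∀ n P D, MeasurableSet {z | hN n P D z}) (D : Finset ι) :
    MeasurableSet {z | HNode p s 𝒢 (S z) (fun n P D => hN n P D z) D} := by
  have h1 : {z | HNode p s 𝒢 (S z) (fun n P D => hN n P D z) D} =
      ⋃ n : ℕ, ⋃ P : Finset ι, {z | (𝒢 P ∧ IsComp s (p.Δ n) (S z) P ∧ D ∈ cls p s n P ∧
        2 ≤ (pcs p s n P D).card)} ∩ {z | hN n P D z} := by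
    ext z
    simp only [HNode, Set.mem_ofPred_eq, Set.mem_iUnion, Set.mem_inter_iff]
    constructor
    · rintro ⟨n, P, h1, h2, h3, h4, h5⟩
      exact ⟨n, P, ⟨h1, h2, h3, h4⟩, h5⟩
    · rintro ⟨n, P, ⟨h1, h2, h3, h4⟩, h5⟩
      exact ⟨n, P, h1, h2, h3, h4, h5⟩
  rw [h1]
  refine MeasurableSet.iUnion fun n => MeasurableSet.iUnion fun P =>
    MeasurableSet.inter ?_ (mN n P D)
  exact meas_of_S mS fun T => (𝒢 P ∧ IsComp s (p.Δ n) T P ∧ D ∈ cls p s n P ∧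
    2 ≤ (pcs p s n P D).card)

lemma meas_HChain (mS : ∀ T, MeasurableSet {z | S z = T})
    (mN : ∀ n P D, MeasurableSet {z | hN n P D z}) (C : Finset ι) (𝒟 : Finset (Finset ι)) :
    MeasurableSet {z | HChain p s 𝒢 (S z) (fun n P D => hN n P D z) C 𝒟} := by
  have h1 : {z | HChain p s 𝒢 (S z) (fun n P D => hN n P D z) C 𝒟} =
      {z | (∀ D ∈ 𝒟, ∀ D' ∈ 𝒟, D ⊆ D' ∨ D' ⊆ D) ∧ ∀ D ∈ 𝒟, D ⊆ C} ∩
        ⋂ D ∈ 𝒟, {z | HNode p s 𝒢 (S z) (fun n P D => hN n P D z) D} := by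
    ext z
    simp only [HChain, Set.mem_ofPred_eq, Set.mem_inter_iff, Set.mem_iInter]
    constructor
    · rintro ⟨h1, h2⟩
      exact ⟨⟨h1, fun D hD => (h2 D hD).1⟩, fun D hD => (h2 D hD).2⟩
    · rintro ⟨⟨h1, h2⟩, h3⟩
      exact ⟨h1, fun D hD => ⟨h2 D hD, h3 D hD⟩⟩
  rw [h1]
  exact (MeasurableSet.const _).inter
    (𝒟.measurableSet_biInter fun D _ => meas_HNode mS mN D)

lemma meas_mh (mS : ∀ T, MeasurableSet {z | S z = T})
    (mN : ∀ n P D, MeasurableSet {z | hN n P D z}) (C : Finset ι) :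
    Measurable fun z => mh p s 𝒢 (S z) (fun n P D => hN n P D z) C := by
  classical
  have h0 : ∀ k : ℕ, MeasurableSet {z | k ≤ mh p s 𝒢 (S z) (fun n P D => hN n P D z) C} := by
    intro k
    have h1 : {z | k ≤ mh p s 𝒢 (S z) (fun n P D => hN n P D z) C} =
        ⋃ 𝒟 : Finset (Finset ι), {z | k ≤ 𝒟.card ∧
          HChain p s 𝒢 (S z) (fun n P D => hN n P D z) C 𝒟} := by
      ext z
      simp only [Set.mem_ofPred_eq, Set.mem_iUnion]
      constructor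
      · intro h
        obtain ⟨𝒟, h2, h3⟩ := exists_chain (p := p) (s := s) (𝒢 := 𝒢) (S z)
          (fun n P D => hN n P D z) C
        exact ⟨𝒟, by omega, h2⟩
      · rintro ⟨𝒟, h2, h3⟩
        exact h2.trans (card_le_mh h3)
    rw [h1]
    refine MeasurableSet.iUnion fun 𝒟 => ?_
    by_cases hk : k ≤ 𝒟.card
    · simpa [hk] using meas_HChain mS mN C 𝒟
    · simp [hk]
  exact measurable_of_Ici fun k => h0 k

end Meas

end Vale.Agent.P112.H586
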