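import Vale.Agent.P112.H884.Glue

/-!
# P112, chapter (G): the recursion of `H884/Glue.lean` with crude terms along the segment

* `RecI`: the recursion with the class inequality in integrated form.
* `Rec2`: off the bad set the potential of a class with at least two pieces is at most
  `α` (which is averaged) plus the crude potentials `ψ` of the single pieces (which are not
  averaged and are paid once for each label).
-/

open MeasureTheory Finset
open scoped ENNReal

namespace Vale.Agent.P112.H586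

open Vale.Agent.P112.H884

set_option linter.unusedSectionVars false

variable {ι : Type*} [DecidableEq ι] [Fintype ι]

/-! ## 1. Integrated form -/

/-- The recursion in integrated form: `cstep` is the inequality for one class. -/
structure RecI (p : Sc) (s : ι → ℝ) (𝒢 : Finset ι → Prop) (S : ℝ × ℝ → Finset ι)
    (φ : Finset ι → ℝ × ℝ → ℝ≥0∞) (D : ℝ × ℝ → ℝ≥0∞) : Prop where
  good : Good p s 𝒢
  mS : ∀ T, MeasurableSet {z | S z = T}
  mφ : ∀ C, Measurable (φ C)
  mD : Measurable D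
  cstep : ∀ n P C, 𝒢 P → C ∈ cls p s n P →
    ∫⁻ z in Y p s S n P, (φ C z + 2 * D z) ≤
      ∫⁻ z in Y p s S n P, ∑ e ∈ pcs p s n P C, (φ e z + 2 * D z)

section
variable {p : Sc} {s : ι → ℝ} {𝒢 : Finset ι → Prop} {S : ℝ × ℝ → Finset ι}
  {φ ψ : Finset ι → ℝ × ℝ → ℝ≥0∞} {D : ℝ × ℝ → ℝ≥0∞} {B : Set (ℝ × ℝ)}
  {X v : ℕ → Finset ι → Finset ι → ℝ}
  {α : ℕ → Finset ι → Finset ι → ℝ × ℝ → ℝ≥0∞}

lemma meas_Y (mS : ∀ T, MeasurableSet {z | S z = T}) (n : ℕ) (P : Finset ι) :
    MeasurableSet (Y p s S n P) := meas_of_S mS (fun T => IsComp s (p.Δ n) T P)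

/-- One level. -/
theorem RecI.step (h : RecI p s 𝒢 S φ D) (n : ℕ) :
    ∫⁻ z, Psi p s 𝒢 S φ D n z ≤ ∫⁻ z, Psi p s 𝒢 S φ D (n + 1) z := by
  classical
  have hY := fun P => meas_Y (p := p) (s := s) h.mS n P
  have hm : ∀ C, Measurable fun z => φ C z + 2 * D z := fun C =>
    (h.mφ C).add (h.mD.const_mul 2)
  have h1 : ∫⁻ z, Psi p s 𝒢 S φ D n z =
      ∑ P ∈ (univ : Finset (Finset ι)).filter 𝒢, ∑ C ∈ cls p s n P,
        ∫⁻ z in Y p s S n P, (φ C z + 2 * D z) := by
    have : ∀ z, Psi p s 𝒢 S φ D n z = ∑ P ∈ (univ : Finset (Finset ι)).filter 𝒢,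
        (Y p s S n P).indicator (fun z => ∑ C ∈ cls p s n P, (φ C z + 2 * D z)) z := by
      intro z
      unfold Psi
      rw [sum_Lab (fun P z => ∑ C ∈ cls p s n P, (φ C z + 2 * D z)) n z]
    simp_rw [this]
    rw [lintegral_finsetSum _ fun P _ =>
      (Finset.measurable_sum _ fun C _ => hm C).indicator (hY P)]
    refine Finset.sum_congr rfl fun P _ => ?_
    rw [lintegral_indicator (hY P), lintegral_finsetSum _ fun C _ => hm C]
  have h2 : ∑ P ∈ (univ : Finset (Finset ι)).filter 𝒢, ∑ C ∈ cls p s n P,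
        ∫⁻ z in Y p s S n P, ∑ e ∈ pcs p s n P C, (φ e z + 2 * D z) =
      ∫⁻ z, ∑ P ∈ Lab p s 𝒢 n (S z), ∑ C ∈ cls p s n P, ∑ e ∈ pcs p s n P C,
        (φ e z + 2 * D z) := by
    have : ∀ z, (∑ P ∈ Lab p s 𝒢 n (S z), ∑ C ∈ cls p s n P, ∑ e ∈ pcs p s n P C,
        (φ e z + 2 * D z)) = ∑ P ∈ (univ : Finset (Finset ι)).filter 𝒢,
        (Y p s S n P).indicator (fun z => ∑ C ∈ cls p s n P, ∑ e ∈ pcs p s n P C,
          (φ e z + 2 * D z)) z := by
      intro z
      rw [sum_Lab (fun P z => ∑ C ∈ cls p s n P, ∑ e ∈ pcs p s n P C, (φ e z + 2 * D z)) n z]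
    simp_rw [this]
    have hm2 : ∀ P C, Measurable fun z => ∑ e ∈ pcs p s n P C, (φ e z + 2 * D z) :=
      fun P C => Finset.measurable_sum _ fun e _ => hm e
    rw [lintegral_finsetSum _ fun P _ =>
      (Finset.measurable_sum _ fun C _ => hm2 P C).indicator (hY P)]
    refine Finset.sum_congr rfl fun P _ => ?_
    rw [lintegral_indicator (hY P), lintegral_finsetSum _ fun C _ => hm2 P C]
  rw [h1]
  calc _ ≤ ∑ P ∈ (univ : Finset (Finset ι)).filter 𝒢, ∑ C ∈ cls p s n P,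
        ∫⁻ z in Y p s S n P, ∑ e ∈ pcs p s n P C, (φ e z + 2 * D z) := by
        refine Finset.sum_le_sum fun P hP => Finset.sum_le_sum fun C hC => ?_
        exact h.cstep n P C (mem_filter.1 hP).2 hC
    _ = _ := h2
    _ ≤ _ := lintegral_mono fun z => h.good.refine n (S z) (fun e => φ e z + 2 * D z)

theorem RecI.steps (h : RecI p s 𝒢 S φ D) (n : ℕ) :
    ∫⁻ z, Psi p s 𝒢 S φ D 0 z ≤ ∫⁻ z, Psi p s 𝒢 S φ D n z := by
  induction n with
  | zero => exact le_rfl
  | succ n ih => exact ih.trans (h.step n)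

/-- The recursion, integrated form. -/
theorem RecI.glue (h : RecI p s 𝒢 S φ D) (h0 : ∀ a b, |s a - s b| < p.H * p.Δ 2)
    {n : ℕ} (hn : ∀ z, ∀ a ∈ S z, ∀ b ∈ S z, a ≠ b → p.Δ (n + 1) ≤ |s a - s b|)
    {F : Set (ℝ × ℝ)} (hF : MeasurableSet F) (hFg : ∀ z ∈ F, 𝒢 (S z))
    (hFne : ∀ z ∈ F, (S z).Nonempty) :
    ∫⁻ z in F, φ (S z) z ≤ ∫⁻ z, ∑ a ∈ S z, (φ {a} z + 2 * D z) :=
  calc ∫⁻ z in F, φ (S z) z ≤ ∫⁻ z in F, Psi p s 𝒢 S φ D 0 z :=
        setLIntegral_mono' hF fun z hz => Psi_zero_ge h.good h0 (hFg z hz) (hFne z hz)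
    _ ≤ ∫⁻ z, Psi p s 𝒢 S φ D 0 z := setLIntegral_le_lintegral _ _
    _ ≤ ∫⁻ z, Psi p s 𝒢 S φ D n z := h.steps n
    _ ≤ _ := lintegral_mono fun z => Psi_last_le h.good (hn z)

/-! ## 2. Crude terms along the segment -/

/-- Data for the recursion with crude terms. `α n P C` is the part of the potential of the class
`C` which is averaged along the segment, `ψ e` the crude potential of the single piece `e`. -/
structure Rec2 (p : Sc) (s : ι → ℝ) (𝒢 : Finset ι → Prop) (S : ℝ × ℝ → Finset ι)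
    (φ ψ : Finset ι → ℝ × ℝ → ℝ≥0∞) (α : ℕ → Finset ι → Finset ι → ℝ × ℝ → ℝ≥0∞)
    (D : ℝ × ℝ → ℝ≥0∞) (B : Set (ℝ × ℝ))
    (X v : ℕ → Finset ι → Finset ι → ℝ) : Prop where
  good : Good p s 𝒢
  mS : ∀ T, MeasurableSet {z | S z = T}
  mφ : ∀ C, Measurable (φ C)
  mψ : ∀ C, Measurable (ψ C)
  mα : ∀ n P C, Measurable (α n P C)
  mD : Measurable D
  mB : MeasurableSet B
  Xpos : ∀ n P C, 0 < X n P C
  ψ0 : ∀ C z, 2 ≤ C.card → ψ C z = 0
  split : ∀ n P C w, 𝒢 P → IsComp s (p.Δ n) (S w) P → C ∈ cls p s n P →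
    2 ≤ (pcs p s n P C).card → w ∉ B →
    φ C w ≤ α n P C w + ∑ e ∈ pcs p s n P C, ψ e w
  node : ∀ n P C z, 𝒢 P → IsComp s (p.Δ n) (S z) P → C ∈ cls p s n P →
    2 ≤ (pcs p s n P C).card →
    ∫⁻ t in Set.Icc 0 (X n P C),
      (Y p s S n P \ B).indicator (α n P C) (mv z t (v n P C)) ≤
      ENNReal.ofReal (X n P C) * (∑ e ∈ pcs p s n P C, φ e z + D z)
  stab : ∀ n P C z t, 𝒢 P → C ∈ cls p s n P → 2 ≤ (pcs p s n P C).card →
    0 ≤ t → t ≤ X n P C → IsComp s (p.Δ n) (S (mv z t (v n P C))) P →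
    mv z t (v n P C) ∉ B → IsComp s (p.Δ n) (S z) P
  triv : ∀ C z, z ∈ B → 𝒢 C → C ⊆ S z → φ C z ≤ D z

/-- A class with at least two pieces is not a singleton. -/
lemma two_le_card (hg : Good p s 𝒢) {n : ℕ} {P C : Finset ι} (hP : 𝒢 P)
    (hc : Conn s (p.Δ n) P) (hC : C ∈ cls p s n P) (hq : 2 ≤ (pcs p s n P C).card) :
    2 ≤ C.card := by
  rw [hg.pcs_eq hP hc hC] at hq
  exact hq.trans Finset.card_image_le

/-- One class, at least two pieces: the averaged part. -/
lemma Rec2.node_int (h : Rec2 p s 𝒢 S φ ψ α D B X v) {n : ℕ} {P C : Finset ι} (hP : 𝒢 P)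
    (hC : C ∈ cls p s n P) (hq : 2 ≤ (pcs p s n P C).card) :
    ∫⁻ z in Y p s S n P \ B, α n P C z ≤
      ∫⁻ z in Y p s S n P, (∑ e ∈ pcs p s n P C, φ e z + D z) := by
  have hX := h.Xpos n P C
  have hYm := meas_Y (p := p) (s := s) h.mS n P
  set g : ℝ × ℝ → ℝ≥0∞ := (Y p s S n P \ B).indicator (α n P C) with hg
  have hgm : Measurable g := (h.mα n P C).indicator (hYm.diff h.mB)
  have h1 : ENNReal.ofReal (X n P C) * ∫⁻ z, g z ≤
      ENNReal.ofReal (X n P C) *
        ∫⁻ z in Y p s S n P, (∑ e ∈ pcs p s n P C, φ e z + D z) := by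
    have hm1 : Measurable fun z => ∑ e ∈ pcs p s n P C, φ e z + D z :=
      (Finset.measurable_sum _ fun e _ => h.mφ e).add h.mD
    rw [avg_swap hgm _ (v n P C), ← lintegral_const_mul _ hm1, ← lintegral_indicator hYm]
    refine lintegral_mono fun z => ?_
    by_cases hz : z ∈ Y p s S n P
    · rw [Set.indicator_of_mem hz]
      exact h.node n P C z hP hz hC hq
    · rw [Set.indicator_of_notMem hz]
      refine le_of_eq ?_
      rw [setLIntegral_congr_fun (g := fun _ => (0 : ℝ≥0∞)) measurableSet_Icc, lintegral_zero]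
      intro t ht
      simp only [hg]
      refine Set.indicator_of_notMem ?_ _
      rintro ⟨h2, h3⟩
      exact hz (h.stab n P C z t hP hC hq ht.1 ht.2 h2 h3)
  rw [← lintegral_indicator (hYm.diff h.mB)]
  have h0 : ENNReal.ofReal (X n P C) ≠ 0 := by
    simpa using hX
  exact (ENNReal.mul_le_mul_iff_right h0 ENNReal.ofReal_ne_top).1 h1

/-- One class. -/
lemma Rec2.class_step (h : Rec2 p s 𝒢 S φ ψ α D B X v) {n : ℕ} {P C : Finset ι} (hP : 𝒢 P)
    (hC : C ∈ cls p s n P) :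
    ∫⁻ z in Y p s S n P, ((φ C z + ψ C z) + 2 * D z) ≤
      ∫⁻ z in Y p s S n P, ∑ e ∈ pcs p s n P C, ((φ e z + ψ e z) + 2 * D z) := by
  have hYm := meas_Y (p := p) (s := s) h.mS n P
  by_cases hc : Conn s (p.Δ n) P
  · by_cases hq : 2 ≤ (pcs p s n P C).card
    · have hC2 : 2 ≤ C.card := two_le_card h.good hP hc hC hq
      have hψ : ∀ z, ψ C z = 0 := fun z => h.ψ0 C z hC2
      simp only [hψ, add_zero]
      have hm1 : Measurable fun z => ∑ e ∈ pcs p s n P C, φ e z :=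
        Finset.measurable_sum _ fun e _ => h.mφ e
      have hmψ : Measurable fun z => ∑ e ∈ pcs p s n P C, ψ e z :=
        Finset.measurable_sum _ fun e _ => h.mψ e
      have h1 : ∫⁻ z in Y p s S n P, φ C z ≤
          ((∫⁻ z in Y p s S n P, (∑ e ∈ pcs p s n P C, φ e z + D z)) +
            ∫⁻ z in Y p s S n P, ∑ e ∈ pcs p s n P C, ψ e z) +
            ∫⁻ z in Y p s S n P, D z := by
        have h2 : ∫⁻ z in Y p s S n P, φ C z =
            (∫⁻ z in Y p s S n P ∩ B, φ C z) + ∫⁻ z in Y p s S n P \ B, φ C z :=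
          (lintegral_inter_add_sdiff _ _ h.mB).symm
        rw [h2, add_comm]
        refine add_le_add ?_ ?_
        · calc ∫⁻ z in Y p s S n P \ B, φ C z
              ≤ ∫⁻ z in Y p s S n P \ B, (α n P C z + ∑ e ∈ pcs p s n P C, ψ e z) :=
                setLIntegral_mono' (hYm.diff h.mB) fun z hz =>
                  h.split n P C z hP hz.1 hC hq hz.2
            _ = (∫⁻ z in Y p s S n P \ B, α n P C z) +
                  ∫⁻ z in Y p s S n P \ B, ∑ e ∈ pcs p s n P C, ψ e z :=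
                lintegral_add_left (h.mα n P C) _
            _ ≤ _ := add_le_add (h.node_int hP hC hq)
                (lintegral_mono_set Set.sdiff_subset)
        · calc ∫⁻ z in Y p s S n P ∩ B, φ C z ≤ ∫⁻ z in Y p s S n P ∩ B, D z := by
                refine setLIntegral_mono' (hYm.inter h.mB) fun z hz => ?_
                have hz1 : IsComp s (p.Δ n) (S z) P := hz.1
                exact h.triv C z hz.2 (h.good.her _ _ hP (cls_sub hC))
                  ((cls_sub hC).trans hz1.1)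
            _ ≤ ∫⁻ z in Y p s S n P, D z := lintegral_mono_set Set.inter_subset_left
      calc ∫⁻ z in Y p s S n P, (φ C z + 2 * D z)
          = (∫⁻ z in Y p s S n P, φ C z) + ∫⁻ z in Y p s S n P, 2 * D z :=
            lintegral_add_left (h.mφ C) _
        _ ≤ (((∫⁻ z in Y p s S n P, (∑ e ∈ pcs p s n P C, φ e z + D z)) +
              ∫⁻ z in Y p s S n P, ∑ e ∈ pcs p s n P C, ψ e z) +
              ∫⁻ z in Y p s S n P, D z) + ∫⁻ z in Y p s S n P, 2 * D z :=
            add_le_add h1 le_rfl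
        _ = ∫⁻ z in Y p s S n P, ((((∑ e ∈ pcs p s n P C, φ e z + D z) +
              ∑ e ∈ pcs p s n P C, ψ e z) + D z) + 2 * D z) := by
            have hm2 : Measurable fun z => ∑ e ∈ pcs p s n P C, φ e z + D z := hm1.add h.mD
            have hm3 : Measurable fun z => (∑ e ∈ pcs p s n P C, φ e z + D z) +
              ∑ e ∈ pcs p s n P C, ψ e z := hm2.add hmψ
            have hm4 : Measurable fun z => ((∑ e ∈ pcs p s n P C, φ e z + D z) +
              ∑ e ∈ pcs p s n P C, ψ e z) + D z := hm3.add h.mD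
            rw [lintegral_add_left hm4, lintegral_add_left hm3, lintegral_add_left hm2]
        _ ≤ ∫⁻ z in Y p s S n P, ∑ e ∈ pcs p s n P C, ((φ e z + ψ e z) + 2 * D z) := by
            refine lintegral_mono fun z => ?_
            dsimp only
            rw [Finset.sum_add_distrib, Finset.sum_const, nsmul_eq_mul, Finset.sum_add_distrib]
            have h3 : (2 : ℝ≥0∞) ≤ ((pcs p s n P C).card : ℝ≥0∞) := by exact_mod_cast hq
            have h4 : D z + D z + 2 * D z ≤ ((pcs p s n P C).card : ℝ≥0∞) * (2 * D z) := by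
              calc D z + D z + 2 * D z = 2 * (2 * D z) := by ring
                _ ≤ _ := by gcongr
            calc (((∑ e ∈ pcs p s n P C, φ e z + D z) +
              ∑ e ∈ pcs p s n P C, ψ e z) + D z) + 2 * D z
                = (∑ e ∈ pcs p s n P C, φ e z + ∑ e ∈ pcs p s n P C, ψ e z) +
                  (D z + D z + 2 * D z) := by ring
              _ ≤ _ := by gcongr
    · have h1 : pcs p s n P C = {C} := h.good.pcs_one hP hc hC (by omega)
      rw [h1]
      simp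
  · have h1 : Y p s S n P = ∅ := by
      ext z
      simp only [Y, Set.mem_ofPred_eq, Set.mem_empty_iff_false, iff_false]
      intro h2
      exact hc h2.2.1
    rw [h1]
    simp

theorem Rec2.toRecI (h : Rec2 p s 𝒢 S φ ψ α D B X v) :
    RecI p s 𝒢 S (fun C z => φ C z + ψ C z) D where
  good := h.good
  mS := h.mS
  mφ := fun C => (h.mφ C).add (h.mψ C)
  mD := h.mD
  cstep := fun _ _ _ hP hC => h.class_step hP hC

/-- The recursion with crude terms. -/
theorem Rec2.glue (h : Rec2 p s 𝒢 S φ ψ α D B X v) (h0 : ∀ a b, |s a - s b| < p.H * p.Δ 2)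
    {n : ℕ} (hn : ∀ z, ∀ a ∈ S z, ∀ b ∈ S z, a ≠ b → p.Δ (n + 1) ≤ |s a - s b|)
    {F : Set (ℝ × ℝ)} (hF : MeasurableSet F) (hFg : ∀ z ∈ F, 𝒢 (S z))
    (hFne : ∀ z ∈ F, (S z).Nonempty) :
    ∫⁻ z in F, φ (S z) z ≤ ∫⁻ z, ∑ a ∈ S z, (φ {a} z + ψ {a} z + 2 * D z) :=
  (lintegral_mono fun _ => le_self_add).trans
    (h.toRecI.glue h0 hn hF hFg hFne)

end

end Vale.Agent.P112.H586
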